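import Vale.Agent.P226.H757.Null

/-!
# P226, equality case: the nonzero moments of a maximiser are pairwise strictly obtuse
-/

set_option autoImplicit false

open MeasureTheory ProbabilityTheory
open scoped RealInnerProductSpace

namespace Vale.Agent.P226.Eqc

open K3

variable {E : Type*} [NormedAddCommGroup E] [InnerProductSpace ℝ E] [FiniteDimensional ℝ E]
  [MeasurableSpace E] [BorelSpace E]

lemma fm_empty : fm (∅ : Set E) = 0 := by
  unfold fm
  simp

section

variable {k : ℕ} {A : Fin k → Set E} {i j : Fin k}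

lemma sum_join (h : IsPart A) (hij : i ≠ j) :
    ∑ l, ‖fm (move A i j (A i) l)‖ ^ 2 = ∑ l, ‖fm (A l)‖ ^ 2 + 2 * ⟪fm (A i), fm (A j)⟫ := by
  rw [sum_move h hij (h.meas i) le_rfl, inner_sub_left, real_inner_self_eq_norm_sq,
    real_inner_comm]
  ring

/-- The inner products of two moments of a maximiser are nonpositive. -/
lemma IsMax.inner_nonpos (h : IsMax A) (hij : i ≠ j) : ⟪fm (A i), fm (A j)⟫ ≤ 0 := by
  have h1 := bdd k _ (isPart_move h.1 hij (h.1.meas i) le_rfl)
  rw [sum_join h.1 hij, h.2] at h1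
  linarith

/-- If two moments are orthogonal then the two cells can be joined. -/
lemma IsMax.join (h : IsMax A) (hij : i ≠ j) (h0 : ⟪fm (A i), fm (A j)⟫ = 0) :
    IsMax (move A i j (A i)) := by
  refine ⟨isPart_move h.1 hij (h.1.meas i) le_rfl, ?_⟩
  rw [sum_join h.1 hij, h0, h.2]
  ring

lemma move_self_left : fm (move A i j (A i) i) = 0 := by
  have : move A i j (A i) i = ∅ := by simp [move]
  rw [this, fm_empty]

lemma move_self_right (h : IsPart A) (hij : i ≠ j) :
    fm (move A i j (A i) j) = fm (A j) + fm (A i) := by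
  have : move A i j (A i) j = A j ∪ A i := by simp [move, Ne.symm hij]
  rw [this, fm_union (h.meas i) (h.disj (Ne.symm hij))]

lemma move_other {N : Set E} {l : Fin k} (hi : l ≠ i) (hj : l ≠ j) : move A i j N l = A l := by
  simp [move, hi, hj]

/-- The key open condition. -/
lemma IsMax.key (h : IsMax A) (hij : i ≠ j) (h0 : ⟪fm (A i), fm (A j)⟫ = 0) (x : E)
    (hx : ∀ l, l ≠ i → l ≠ j → ⟪fm (A l), x⟫ < ⟪fm (A i), x⟫) {m : Fin k} (hmi : m ≠ i)
    (hmj : m ≠ j) : ⟪fm (A m), x⟫ ≤ ⟪fm (A j) + fm (A i), x⟫ := by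
  by_contra hc
  push Not at hc
  let U : Set E := (⋂ l : Fin k, ⋂ _ : l ≠ i, ⋂ _ : l ≠ j, {x | ⟪fm (A l), x⟫ < ⟪fm (A i), x⟫}) ∩
    {x | ⟪fm (A j) + fm (A i), x⟫ < ⟪fm (A m), x⟫}
  have hU : IsOpen U := by
    refine IsOpen.inter ?_ (isOpen_lt (by fun_prop) (by fun_prop))
    exact isOpen_iInter_of_finite fun l => isOpen_iInter_of_finite fun _ =>
      isOpen_iInter_of_finite fun _ => isOpen_lt (by fun_prop) (by fun_prop)
  have hmem : ∀ y, y ∈ U ↔ (∀ l, l ≠ i → l ≠ j → ⟪fm (A l), y⟫ < ⟪fm (A i), y⟫) ∧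
      ⟪fm (A j) + fm (A i), y⟫ < ⟪fm (A m), y⟫ := by
    intro y
    simp only [U, Set.mem_inter_iff, Set.mem_iInter, Set.mem_ofPred_eq]
  have hae : ∀ᵐ y ∂(stdGaussian E), y ∉ U := by
    filter_upwards [h.argmax, (h.join hij h0).argmax] with y hy hy' hyU
    rw [hmem] at hyU
    have hcov : y ∈ ⋃ l, A l := by rw [h.1.cover]; trivial
    obtain ⟨l, hl⟩ := Set.mem_iUnion.1 hcov
    have hjoin : y ∈ move A i j (A i) j → False := by
      intro hyj
      have h1 := hy' j hyj m
      rw [move_other hmi hmj, move_self_right h.1 hij] at h1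
      exact absurd hyU.2 (not_lt.2 h1)
    by_cases hli : l = i
    · subst hli
      apply hjoin
      have : move A l j (A l) j = A j ∪ A l := by simp [move, Ne.symm hij]
      rw [this]
      exact Or.inr hl
    by_cases hlj : l = j
    · subst hlj
      apply hjoin
      have : move A i l (A i) l = A l ∪ A i := by simp [move, Ne.symm hij]
      rw [this]
      exact Or.inl hl
    exact absurd (hyU.1 l hli hlj) (not_lt.2 (hy l hl i))
  exact not_mem_of_ae hU hae x ((hmem x).2 ⟨hx, hc⟩)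

/-- **(N3)** Nonzero moments of a maximiser are strictly obtuse. -/
theorem IsMax.inner_neg (h : IsMax A) (hij : i ≠ j) (hi : fm (A i) ≠ 0) (hj : fm (A j) ≠ 0) :
    ⟪fm (A i), fm (A j)⟫ < 0 := by
  rcases (h.inner_nonpos hij).lt_or_eq with h0 | h0
  · exact h0
  exfalso
  have ha : 0 < ‖fm (A i)‖ ^ 2 := by positivity
  have hb : 0 < ‖fm (A j)‖ ^ 2 := by positivity
  set a := ‖fm (A i)‖ ^ 2 with ha'
  set b := ‖fm (A j)‖ ^ 2 with hb'
  -- some other moment is strictly obtuse to `fm (A j)`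
  let S : Finset (Fin k) := Finset.univ.filter fun l => l ≠ i ∧ l ≠ j ∧ ⟪fm (A l), fm (A j)⟫ < 0
  have hS : S.Nonempty := by
    by_contra hne
    rw [Finset.not_nonempty_iff_eq_empty] at hne
    have h1 : ∑ l, ⟪fm (A l), fm (A j)⟫ = 0 := by
      rw [← sum_inner, h.1.sum_fm, inner_zero_left]
    have h2 : ∀ l ∈ (Finset.univ : Finset (Fin k)), 0 ≤ ⟪fm (A l), fm (A j)⟫ := by
      intro l _
      by_contra hc
      push Not at hc
      have hli : l ≠ i := by
        rintro rfl
        rw [h0] at hc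
        exact lt_irrefl _ hc
      have hlj : l ≠ j := by
        rintro rfl
        rw [real_inner_self_eq_norm_sq] at hc
        exact absurd hc (not_lt.2 (sq_nonneg _))
      have : l ∈ S := by simp [S, hli, hlj, hc]
      rw [hne] at this
      exact absurd this (Finset.notMem_empty l)
    have h3 := (Finset.sum_eq_zero_iff_of_nonneg h2).1 h1 j (Finset.mem_univ j)
    rw [real_inner_self_eq_norm_sq] at h3
    exact hb.ne' h3
  obtain ⟨m, hm, hmin⟩ := S.exists_min_image
    (fun l => (a - ⟪fm (A l), fm (A i)⟫) / (-⟪fm (A l), fm (A j)⟫)) hS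
  simp only [S, Finset.mem_filter, Finset.mem_univ, true_and] at hm hmin
  obtain ⟨hmi, hmj, hmneg⟩ := hm
  set c := a - ⟪fm (A m), fm (A i)⟫ with hc
  set p := -⟪fm (A m), fm (A j)⟫ with hp
  have hα : ⟪fm (A m), fm (A i)⟫ ≤ 0 := h.inner_nonpos hmi
  have hc0 : 0 < c := by rw [hc]; linarith
  have hp0 : 0 < p := by rw [hp]; linarith
  set t := c / (p + b / 2) with ht
  have hden : 0 < p + b / 2 := by positivity
  have ht0 : 0 < t := div_pos hc0 hden
  have htc : t * (p + b / 2) = c := by rw [ht]; field_simp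
  have hval : ∀ l, ⟪fm (A l), fm (A i) - t • fm (A j)⟫ =
      ⟪fm (A l), fm (A i)⟫ - t * ⟪fm (A l), fm (A j)⟫ := by
    intro l
    rw [inner_sub_right, inner_smul_right]
  have hvi : ⟪fm (A i), fm (A i) - t • fm (A j)⟫ = a := by
    rw [hval, h0, real_inner_self_eq_norm_sq, ha']
    ring
  have hvj : ⟪fm (A j), fm (A i) - t • fm (A j)⟫ = - (t * b) := by
    rw [hval, real_inner_comm, h0, real_inner_self_eq_norm_sq, hb']
    ring
  have hlt : ∀ l, l ≠ i → l ≠ j →
      ⟪fm (A l), fm (A i) - t • fm (A j)⟫ < ⟪fm (A i), fm (A i) - t • fm (A j)⟫ := by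
    intro l hli hlj
    rw [hvi, hval]
    have h1 : ⟪fm (A l), fm (A i)⟫ ≤ 0 := h.inner_nonpos hli
    rcases (h.inner_nonpos hlj).lt_or_eq with h2 | h2
    · have h3 := hmin l ⟨hli, hlj, h2⟩
      have h4 : 0 < -⟪fm (A l), fm (A j)⟫ := by linarith
      have h5 : t < c / p := by
        rw [ht]
        exact div_lt_div_of_pos_left hc0 hp0 (by linarith)
      have h6 : t < (a - ⟪fm (A l), fm (A i)⟫) / (-⟪fm (A l), fm (A j)⟫) := lt_of_lt_of_le h5 h3
      rw [lt_div_iff₀ h4] at h6
      linarith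
    · rw [h2]
      linarith
  have hkey := h.key hij h0 _ hlt hmi hmj
  rw [inner_add_left, hvi, hvj, hval] at hkey
  nlinarith

end

end Vale.Agent.P226.Eqc
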