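import Vale.Agent.P226.H757.Neg

/-!
# P226, equality case: maximisers with at most three nonzero moments are propellers
-/

set_option autoImplicit false

open MeasureTheory ProbabilityTheory
open scoped RealInnerProductSpace

namespace Vale.Agent.P226.Eqc

open K3

variable {E : Type*} [NormedAddCommGroup E] [InnerProductSpace ℝ E] [FiniteDimensional ℝ E]
  [MeasurableSpace E] [BorelSpace E]

omit [FiniteDimensional ℝ E] [MeasurableSpace E] [BorelSpace E] in
/-- The defect in `perimeter_sq_le`. -/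
lemma perimeter_defect (u v w : E) :
    9 * (‖u‖ ^ 2 + ‖v‖ ^ 2 + ‖w‖ ^ 2) - (‖u - v‖ + ‖v - w‖ + ‖u - w‖) ^ 2 =
      (‖u - v‖ - ‖v - w‖) ^ 2 + (‖v - w‖ - ‖u - w‖) ^ 2 + (‖u - v‖ - ‖u - w‖) ^ 2 +
        3 * ‖u + v + w‖ ^ 2 := by
  have h1 := norm_sub_sq_real u v
  have h2 := norm_sub_sq_real v w
  have h3 := norm_sub_sq_real u w
  have h4 := norm_add_sq_real (u + v) w
  have h5 := norm_add_sq_real u v
  rw [inner_add_left] at h4
  nlinarith

/-- The equality case of the three cell bound. -/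
lemma eq_of_le_max3 {u v w : E}
    (h : ‖u‖ ^ 2 + ‖v‖ ^ 2 + ‖w‖ ^ 2 ≤
      ∫ x, max ⟪u, x⟫ (max ⟪v, x⟫ ⟪w, x⟫) ∂(stdGaussian E))
    (hF : ‖u‖ ^ 2 + ‖v‖ ^ 2 + ‖w‖ ^ 2 = 9 / (8 * Real.pi)) :
    u + v + w = 0 ∧ ‖u‖ = ‖v‖ ∧ ‖v‖ = ‖w‖ := by
  rw [integral_max3] at h
  have hdef := perimeter_defect u v w
  set F := ‖u‖ ^ 2 + ‖v‖ ^ 2 + ‖w‖ ^ 2 with hFdef
  set P := ‖u - v‖ + ‖v - w‖ + ‖u - w‖ with hP
  have hs : √(2 * Real.pi) ^ 2 = 2 * Real.pi := Real.sq_sqrt (by positivity)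
  have hspos : 0 < √(2 * Real.pi) := by positivity
  have hF0 : 0 < F := by rw [hF]; positivity
  have h5 : F * (2 * √(2 * Real.pi)) ≤ P := by
    rwa [le_div_iff₀ (by positivity)] at h
  have h6 : (F * (2 * √(2 * Real.pi))) ^ 2 ≤ P ^ 2 := by
    gcongr
  have h7 : (F * (2 * √(2 * Real.pi))) ^ 2 = 9 * F := by
    rw [mul_pow, mul_pow, hs]
    have h8 : F * (8 * Real.pi) = 9 := by
      rw [hF]
      field_simp
    calc F ^ 2 * (2 ^ 2 * (2 * Real.pi)) = F * (F * (8 * Real.pi)) := by ring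
      _ = 9 * F := by rw [h8]; ring
  have e1 := sq_nonneg (‖u - v‖ - ‖v - w‖)
  have e2 := sq_nonneg (‖v - w‖ - ‖u - w‖)
  have e3 := sq_nonneg (‖u - v‖ - ‖u - w‖)
  have e4 := sq_nonneg ‖u + v + w‖
  have z1 : (‖u - v‖ - ‖v - w‖) ^ 2 = 0 := by linarith
  have z2 : (‖v - w‖ - ‖u - w‖) ^ 2 = 0 := by linarith
  have z4 : ‖u + v + w‖ ^ 2 = 0 := by linarith
  have y1 : ‖u - v‖ = ‖v - w‖ := by
    have := pow_eq_zero_iff (two_ne_zero) |>.1 z1
    linarith
  have y2 : ‖v - w‖ = ‖u - w‖ := by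
    have := pow_eq_zero_iff (two_ne_zero) |>.1 z2
    linarith
  have y4 : u + v + w = 0 := norm_eq_zero.1 (pow_eq_zero_iff (two_ne_zero) |>.1 z4)
  refine ⟨y4, ?_, ?_⟩
  · -- compare `‖u - w‖` and `‖v - w‖`
    have hw : w = -(u + v) := by
      rw [eq_neg_iff_add_eq_zero, add_comm]
      exact y4
    have a1 := norm_sub_sq_real v w
    have a2 := norm_sub_sq_real u w
    rw [y2] at a1
    have a3 : ⟪v, w⟫ = -⟪u, v⟫ - ‖v‖ ^ 2 := by
      rw [hw, inner_neg_right, inner_add_right, real_inner_self_eq_norm_sq, real_inner_comm u v]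
      ring
    have a4 : ⟪u, w⟫ = -⟪u, v⟫ - ‖u‖ ^ 2 := by
      rw [hw, inner_neg_right, inner_add_right, real_inner_self_eq_norm_sq]
      ring
    have a5 : ‖u‖ ^ 2 = ‖v‖ ^ 2 := by linarith
    exact (pow_left_inj₀ (norm_nonneg _) (norm_nonneg _) two_ne_zero).1 a5
  · have hu : u = -(v + w) := by
      rw [eq_neg_iff_add_eq_zero, ← add_assoc]
      exact y4
    have a1 := norm_sub_sq_real u v
    have a2 := norm_sub_sq_real u w
    rw [y1, y2] at a1
    have a3 : ⟪u, v⟫ = -⟪v, w⟫ - ‖v‖ ^ 2 := by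
      rw [hu, inner_neg_left, inner_add_left, real_inner_self_eq_norm_sq, real_inner_comm v w]
      ring
    have a4 : ⟪u, w⟫ = -⟪v, w⟫ - ‖w‖ ^ 2 := by
      rw [hu, inner_neg_left, inner_add_left, real_inner_self_eq_norm_sq]
      ring
    have a5 : ‖v‖ ^ 2 = ‖w‖ ^ 2 := by linarith
    exact (pow_left_inj₀ (norm_nonneg _) (norm_nonneg _) two_ne_zero).1 a5

open Classical in
/-- Three vectors carrying all the moments. -/
lemma IsMax.exists_three {k : ℕ} {A : Fin k → Set E} (h : IsMax A)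
    (hc : (Finset.univ.filter fun i => fm (A i) ≠ 0).card ≤ 3) :
    ∃ w : Fin 3 → E, ∑ j, w j = 0 ∧ ‖w 0‖ = ‖w 1‖ ∧ ‖w 1‖ = ‖w 2‖ ∧ 0 < ‖w 0‖ ∧
      ∃ f : Fin 3 → Fin k, Function.Injective f ∧ (∀ j, fm (A (f j)) = w j) ∧
        ∀ i, i ∉ Set.range f → fm (A i) = 0 := by
  let S : Finset (Fin k) := Finset.univ.filter fun i => fm (A i) ≠ 0
  have hcard : Fintype.card S ≤ Fintype.card (Fin 3) := by
    rw [Fintype.card_coe, Fintype.card_fin]
    exact hc
  obtain ⟨e⟩ := Function.Embedding.nonempty_of_card_le hcard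
  let w : Fin 3 → E := fun j => ∑ s : S, if e s = j then fm (A s) else 0
  have hwe : ∀ s : S, w (e s) = fm (A s) := by
    intro s
    simp only [w]
    rw [Finset.sum_eq_single s]
    · simp
    · intro t _ hts
      rw [if_neg]
      exact fun hc => hts (e.injective hc)
    · intro hs
      exact absurd (Finset.mem_univ s) hs
  have hwr : ∀ j, j ∉ Set.range e → w j = 0 := by
    intro j hj
    simp only [w]
    refine Finset.sum_eq_zero fun s _ => ?_
    rw [if_neg]
    exact fun hc => hj ⟨s, hc⟩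
  have hval : ∀ i : Fin k, i ∉ Set.range (Subtype.val : S → Fin k) → fm (A i) = 0 := by
    intro i hi
    by_contra hne
    exact hi ⟨⟨i, by simp [S, hne]⟩, rfl⟩
  have hsum : ∑ j, w j = 0 := by
    rw [← Fintype.sum_of_injective e e.injective (fun s => fm (A s)) w hwr
      (fun s => (hwe s).symm), Fintype.sum_of_injective (Subtype.val : S → Fin k)
      Subtype.val_injective (fun s => fm (A s)) (fun i => fm (A i)) hval (fun _ => rfl)]
    exact h.1.sum_fm
  have hsq : ∑ j, ‖w j‖ ^ 2 = 9 / (8 * Real.pi) := by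
    rw [← Fintype.sum_of_injective e e.injective (fun s => ‖fm (A s)‖ ^ 2) (fun j => ‖w j‖ ^ 2)
      (fun j hj => by rw [hwr j hj]; simp)
      (fun s => by rw [hwe s]), Fintype.sum_of_injective (Subtype.val : S → Fin k)
      Subtype.val_injective (fun s => ‖fm (A s)‖ ^ 2) (fun i => ‖fm (A i)‖ ^ 2)
      (fun i hi => by rw [hval i hi]; simp) (fun _ => rfl)]
    exact h.2
  have hmax : ∑ i, ⟪fm (A i), fm (A i)⟫ ≤
      ∫ x, max ⟪w 0, x⟫ (max ⟪w 1, x⟫ ⟪w 2, x⟫) ∂(stdGaussian E) := by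
    refine sum_inner_fm_le A h.1.meas h.1.disj h.1.cover (fun i => fm (A i)) _
      (integrable_max3 (w 0) (w 1) (w 2)) ?_
    intro i x
    have hj : ∀ j, ⟪w j, x⟫ ≤ max ⟪w 0, x⟫ (max ⟪w 1, x⟫ ⟪w 2, x⟫) := by
      intro j
      fin_cases j <;> simp
    by_cases hi : i ∈ Set.range (Subtype.val : S → Fin k)
    · obtain ⟨s, rfl⟩ := hi
      rw [← hwe s]
      exact hj _
    · rw [hval i hi, inner_zero_left]
      by_contra hneg
      push Not at hneg
      have h1 : ⟪∑ j, w j, x⟫ = 0 := by rw [hsum, inner_zero_left]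
      rw [Fin.sum_univ_three, inner_add_left, inner_add_left] at h1
      have := hj 0
      have := hj 1
      have := hj 2
      linarith
  have hS3 : ‖w 0‖ ^ 2 + ‖w 1‖ ^ 2 + ‖w 2‖ ^ 2 = 9 / (8 * Real.pi) := by
    rw [← hsq, Fin.sum_univ_three]
  obtain ⟨_, h1, h2⟩ := eq_of_le_max3 (u := w 0) (v := w 1) (w := w 2) (by
    rw [hS3, ← h.2]
    simp only [real_inner_self_eq_norm_sq] at hmax
    exact hmax) hS3
  have hpos : 0 < ‖w 0‖ := by
    rcases (norm_nonneg (w 0)).lt_or_eq with h3 | h3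
    · exact h3
    · exfalso
      rw [← h2, ← h1, ← h3] at hS3
      have : (0 : ℝ) < 9 / (8 * Real.pi) := by positivity
      norm_num at hS3
      linarith
  have hne : ∀ j, w j ≠ 0 := by
    intro j
    rw [← norm_pos_iff]
    fin_cases j
    · exact hpos
    · show 0 < ‖w 1‖
      rw [← h1]
      exact hpos
    · show 0 < ‖w 2‖
      rw [← h2, ← h1]
      exact hpos
  have hsurj : ∀ j, ∃ s : S, e s = j := by
    intro j
    by_contra hj
    exact hne j (hwr j (fun hc => hj hc))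
  choose g hg using hsurj
  refine ⟨w, hsum, h1, h2, hpos, fun j => (g j : Fin k), ?_, ?_, ?_⟩
  · intro i j hij
    have : g i = g j := Subtype.ext hij
    rw [← hg i, ← hg j, this]
  · intro j
    rw [← hwe, hg]
  · intro i hi
    apply hval
    rintro ⟨s, rfl⟩
    apply hi
    refine ⟨e s, ?_⟩
    have : g (e s) = s := e.injective (hg (e s))
    simp [this]

open Classical in
/-- **(N4)** A maximiser with at most three nonzero moments is a propeller. -/
theorem IsMax.propeller {k : ℕ} {A : Fin k → Set E} (h : IsMax A)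
    (hc : (Finset.univ.filter fun i => fm (A i) ≠ 0).card ≤ 3) :
    ∃ u : Fin 3 → E, (∀ j, ‖u j‖ = 1) ∧ ∑ j, u j = 0 ∧ ∃ f : Fin 3 → Fin k,
      Function.Injective f ∧
      (∀ j, A (f j) =ᵐ[stdGaussian E] {x | ∀ l, ⟪u l, x⟫ ≤ ⟪u j, x⟫}) ∧
      ∀ i, i ∉ Set.range f → stdGaussian E (A i) = 0 := by
  obtain ⟨w, hsum, h01, h12, hpos, f, hf, hfw, hoff⟩ := h.exists_three hc
  have hn : ∀ j, ‖w j‖ = ‖w 0‖ := by
    intro j
    fin_cases j
    · rfl
    · exact h01.symm
    · exact (h01.trans h12).symm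
  have hdist : ∀ i j, i ≠ j → w i - w j ≠ 0 := by
    intro i j hij hc0
    have heq : w i = w j := sub_eq_zero.1 hc0
    rw [Fin.sum_univ_three] at hsum
    -- if two of the vectors agree then the third is `-2` times them
    have key : ∀ a b c : E, a + b + c = 0 → a = b → ‖c‖ = ‖a‖ → ‖a‖ = 0 := by
      intro a b c h1 h2 h3
      subst h2
      have h4 : c = -((2 : ℝ) • a) := by
        rw [two_smul, eq_neg_iff_add_eq_zero, add_comm]
        exact h1
      have h5 : ‖(2 : ℝ)‖ = 2 := by norm_num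
      rw [h4, norm_neg, norm_smul, h5] at h3
      linarith
    have h0 : ‖w 0‖ = 0 := by
      fin_cases i <;> fin_cases j <;> simp only [Fin.zero_eta, Fin.mk_one, Fin.reduceFinMk,
        ne_eq, not_true_eq_false, Fin.isValue] at hij heq ⊢
      · exact key (w 0) (w 1) (w 2) hsum heq (hn 2)
      · exact key (w 0) (w 2) (w 1) (by rw [← hsum]; abel) heq (hn 1)
      · exact key (w 0) (w 1) (w 2) hsum heq.symm (hn 2)
      · rw [← hn 1]
        exact key (w 1) (w 2) (w 0) (by rw [← hsum]; abel) heq (by rw [hn 1])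
      · exact key (w 0) (w 2) (w 1) (by rw [← hsum]; abel) heq.symm (hn 1)
      · rw [← hn 1]
        exact key (w 1) (w 2) (w 0) (by rw [← hsum]; abel) heq.symm (by rw [hn 1])
    exact hpos.ne' h0
  refine ⟨fun j => ‖w 0‖⁻¹ • w j, ?_, ?_, f, hf, ?_, fun i hi => h.null (hoff i hi)⟩
  · intro j
    rw [norm_smul, norm_inv, norm_norm, hn j]
    exact inv_mul_cancel₀ hpos.ne'
  · rw [← Finset.smul_sum, hsum, smul_zero]
  · intro j
    have hmem : ∀ x : E, (∀ l, ⟪‖w 0‖⁻¹ • w l, x⟫ ≤ ⟪‖w 0‖⁻¹ • w j, x⟫) ↔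
        ∀ l, ⟪w l, x⟫ ≤ ⟪w j, x⟫ := by
      intro x
      refine forall_congr' fun l => ?_
      rw [inner_smul_left, inner_smul_left]
      simp only [conj_trivial]
      exact mul_le_mul_iff_right₀ (inv_pos.2 hpos)
    have hnull1 : ∀ᵐ x ∂(stdGaussian E), ∀ i, i ∉ Set.range f → x ∉ A i := by
      rw [ae_all_iff]
      intro i
      by_cases hi : i ∈ Set.range f
      · exact Filter.Eventually.of_forall fun x hx => absurd hi hx
      · filter_upwards [measure_eq_zero_iff_ae_notMem.1 (h.null (hoff i hi))] with x hx _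
        exact hx
    have hnull2 : ∀ᵐ x ∂(stdGaussian E), ∀ l, l ≠ j → ⟪w l - w j, x⟫ ≠ 0 := by
      rw [ae_all_iff]
      intro l
      by_cases hl : l = j
      · exact Filter.Eventually.of_forall fun x hx => absurd hl hx
      · filter_upwards [measure_eq_zero_iff_ae_notMem.1 (null_hyperplane (hdist l j hl))]
          with x hx _
        exact hx
    filter_upwards [h.argmax, hnull1, hnull2] with x hx hx1 hx2
    apply propext
    show x ∈ A (f j) ↔ ∀ l, ⟪‖w 0‖⁻¹ • w l, x⟫ ≤ ⟪‖w 0‖⁻¹ • w j, x⟫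
    rw [hmem]
    constructor
    · intro hxj l
      have := hx (f j) hxj (f l)
      rwa [hfw, hfw] at this
    · intro hl
      have hcov : x ∈ ⋃ l, A l := by rw [h.1.cover]; trivial
      obtain ⟨i, hi⟩ := Set.mem_iUnion.1 hcov
      have hir : i ∈ Set.range f := by
        by_contra hc
        exact hx1 i hc hi
      obtain ⟨l, rfl⟩ := hir
      by_cases hlj : l = j
      · rw [← hlj]
        exact hi
      · exfalso
        have h1 := hx (f l) hi (f j)
        rw [hfw, hfw] at h1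
        apply hx2 l hlj
        rw [inner_sub_left]
        have := hl l
        linarith

end Vale.Agent.P226.Eqc
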