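import Vale.Agent.P226.H757.Three

/-!
# P226, equality case: propellers attain the bound, and almost everywhere partitions
-/

set_option autoImplicit false

open MeasureTheory ProbabilityTheory
open scoped RealInnerProductSpace

namespace Vale.Agent.P226.Eqc

open K3

variable {E : Type*} [NormedAddCommGroup E] [InnerProductSpace ℝ E] [FiniteDimensional ℝ E]
  [MeasurableSpace E] [BorelSpace E]

omit [FiniteDimensional ℝ E] [MeasurableSpace E] [BorelSpace E] in
/-- Unit vectors with sum zero have mutual distance `√3`. -/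
lemma dist_sqrt_three {a b c : E} (ha : ‖a‖ = 1) (hb : ‖b‖ = 1) (hc : ‖c‖ = 1)
    (h : a + b + c = 0) : ‖a - b‖ = √3 := by
  have h1 : c = -(a + b) := by
    rw [eq_neg_iff_add_eq_zero, add_comm]
    exact h
  have h2 : ‖a + b‖ ^ 2 = 1 := by
    rw [← norm_neg, ← h1, hc]
    norm_num
  rw [norm_add_sq_real, ha, hb] at h2
  have h3 := norm_sub_sq_real a b
  rw [ha, hb] at h3
  have h4 : ‖a - b‖ ^ 2 = 3 := by linarith
  rw [← h4, Real.sqrt_sq (norm_nonneg _)]

/-- **(N5)** Three cells which are almost everywhere the sectors of a propeller have total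
squared moment at least `9/(8π)`. -/
lemma le_of_sectors {B : Fin 3 → Set E} {u : Fin 3 → E} (hu : ∀ j, ‖u j‖ = 1)
    (hsum : ∑ j, u j = 0) (hm : ∀ j, NullMeasurableSet (B j) (stdGaussian E))
    (hd : Pairwise fun i j => AEDisjoint (stdGaussian E) (B i) (B j))
    (hB : ∀ j, B j =ᵐ[stdGaussian E] {x | ∀ l, ⟪u l, x⟫ ≤ ⟪u j, x⟫}) :
    9 / (8 * Real.pi) ≤ ∑ j, ‖fm (B j)‖ ^ 2 := by
  have hcov : (⋃ j, B j) =ᵐ[stdGaussian E] (Set.univ : Set E) := by
    have h1 : (⋃ j, B j) =ᵐ[stdGaussian E] ⋃ j, {x | ∀ l, ⟪u l, x⟫ ≤ ⟪u j, x⟫} :=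
      Filter.EventuallyEq.countable_iUnion hB
    refine h1.trans (Filter.Eventually.of_forall fun x => ?_)
    apply propext
    refine ⟨fun _ => trivial, fun _ => ?_⟩
    obtain ⟨j, _, hj⟩ := Finset.exists_max_image Finset.univ (fun j : Fin 3 => ⟪u j, x⟫)
      ⟨0, Finset.mem_univ 0⟩
    exact Set.mem_iUnion.2 ⟨j, fun l => hj l (Finset.mem_univ l)⟩
  have hint := integrable_max3 (u 0) (u 1) (u 2)
  have h2 : ∫ x, max ⟪u 0, x⟫ (max ⟪u 1, x⟫ ⟪u 2, x⟫) ∂(stdGaussian E) =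
      ∑ j, ⟪u j, fm (B j)⟫ := by
    rw [← setIntegral_univ, ← setIntegral_congr_set hcov,
      integral_iUnion_ae hm hd hint.integrableOn, tsum_fintype]
    refine Finset.sum_congr rfl fun j _ => ?_
    rw [inner_fm]
    refine integral_congr_ae ?_
    rw [Filter.EventuallyEq, ae_restrict_iff'₀ (hm j)]
    filter_upwards [hB j] with x hx hxB
    have hx' : ∀ l, ⟪u l, x⟫ ≤ ⟪u j, x⟫ := (eq_iff_iff.1 hx).1 hxB
    apply le_antisymm
    · exact max_le (hx' 0) (max_le (hx' 1) (hx' 2))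
    · fin_cases j <;> simp
  rw [integral_max3] at h2
  have h3 := hsum
  rw [Fin.sum_univ_three] at h3
  rw [dist_sqrt_three (hu 0) (hu 1) (hu 2) h3,
    dist_sqrt_three (hu 1) (hu 2) (hu 0) (by rw [← h3]; abel),
    dist_sqrt_three (hu 0) (hu 2) (hu 1) (by rw [← h3]; abel)] at h2
  set S := (√3 + √3 + √3) / (2 * √(2 * Real.pi)) with hSdef
  have hS2 : S ^ 2 = 27 / (8 * Real.pi) := by
    have e3 : (√3 : ℝ) ^ 2 = 3 := Real.sq_sqrt (by norm_num)
    have e4 : √(2 * Real.pi) ^ 2 = 2 * Real.pi := Real.sq_sqrt (by positivity)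
    rw [hSdef, div_pow, mul_pow, e4]
    have : (√3 + √3 + √3) ^ 2 = 27 := by nlinarith only [e3]
    rw [this]
    ring
  have h7 : 0 ≤ ∑ j, ‖fm (B j) - (S / 3) • u j‖ ^ 2 := Finset.sum_nonneg fun j _ => sq_nonneg _
  have h8 : ∀ j, ‖fm (B j) - (S / 3) • u j‖ ^ 2
      = ‖fm (B j)‖ ^ 2 - 2 * (S / 3) * ⟪u j, fm (B j)⟫ + (S / 3) ^ 2 := by
    intro j
    rw [norm_sub_sq_real, inner_smul_right, real_inner_comm, norm_smul, mul_pow, hu,
      Real.norm_eq_abs, sq_abs]
    ring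
  simp_rw [h8] at h7
  rw [Finset.sum_add_distrib, Finset.sum_sub_distrib, ← Finset.mul_sum, ← h2] at h7
  simp only [Finset.sum_const, Finset.card_univ, Fintype.card_fin, nsmul_eq_mul] at h7
  have h9 : 9 / (8 * Real.pi) = S ^ 2 / 3 := by
    rw [hS2]; ring
  rw [h9]
  push_cast at h7
  nlinarith

omit [BorelSpace E] in
/-- Partitions up to null sets agree with exact partitions. -/
lemma exists_exact {k : ℕ} (hk : 0 < k) {A : Fin k → Set E}
    (hm : ∀ i, NullMeasurableSet (A i) (stdGaussian E))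
    (hd : Pairwise fun i j => AEDisjoint (stdGaussian E) (A i) (A j))
    (hcov : ∀ᵐ x ∂(stdGaussian E), x ∈ ⋃ i, A i) :
    ∃ A' : Fin k → Set E, IsPart A' ∧ ∀ i, A' i =ᵐ[stdGaussian E] A i := by
  obtain ⟨t, _, hae, htm, htd⟩ := exists_subordinate_pairwise_disjoint hm hd
  let z : Fin k := ⟨0, hk⟩
  have hall : ∀ᵐ x ∂(stdGaussian E), ∀ i, (x ∈ A i ↔ x ∈ t i) := by
    rw [ae_all_iff]
    intro i
    filter_upwards [hae i] with x hx
    exact eq_iff_iff.1 hx
  have hnull : ∀ᵐ x ∂(stdGaussian E), x ∈ ⋃ i, t i := by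
    filter_upwards [hall, hcov] with x hx hx'
    obtain ⟨i, hi⟩ := Set.mem_iUnion.1 hx'
    exact Set.mem_iUnion.2 ⟨i, (hx i).1 hi⟩
  refine ⟨fun i => if i = z then t i ∪ (⋃ l, t l)ᶜ else t i, ⟨?_, ?_, ?_⟩, ?_⟩
  · intro i
    split_ifs
    · exact (htm i).union (MeasurableSet.iUnion htm).compl
    · exact htm i
  · intro i j hij
    have h1 : ∀ i, Disjoint (t i) (⋃ l, t l)ᶜ := fun i =>
      (disjoint_compl_right (a := ⋃ l, t l)).mono_left (Set.subset_iUnion t i)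
    show Disjoint (if i = z then t i ∪ (⋃ l, t l)ᶜ else t i)
      (if j = z then t j ∪ (⋃ l, t l)ᶜ else t j)
    split_ifs with h2 h3 h3
    · exact absurd (h2.trans h3.symm) hij
    · exact Set.disjoint_union_left.2 ⟨htd hij, (h1 j).symm⟩
    · exact Set.disjoint_union_right.2 ⟨htd hij, h1 i⟩
    · exact htd hij
  · refine Set.eq_univ_of_forall fun x => Set.mem_iUnion.2 ?_
    by_cases hx : x ∈ ⋃ l, t l
    · obtain ⟨l, hl⟩ := Set.mem_iUnion.1 hx
      refine ⟨l, ?_⟩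
      split_ifs
      · exact Or.inl hl
      · exact hl
    · refine ⟨z, ?_⟩
      rw [if_pos rfl]
      exact Or.inr hx
  · intro i
    filter_upwards [hall, hnull] with x hx hx'
    apply propext
    show x ∈ (if i = z then t i ∪ (⋃ l, t l)ᶜ else t i) ↔ x ∈ A i
    rw [hx i]
    split_ifs
    · exact ⟨fun h => h.elim id fun h => absurd hx' h, Or.inl⟩
    · rfl

/-- **(N6)** The equality case, given that a maximiser has at most three nonzero moments. -/
theorem eq_iff_propeller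
    (hM : ∀ (k : ℕ) (A : Fin k → Set E), IsMax A → ∃ u : Fin 3 → E, (∀ j, ‖u j‖ = 1) ∧
      ∑ j, u j = 0 ∧ ∃ f : Fin 3 → Fin k, Function.Injective f ∧
      (∀ j, A (f j) =ᵐ[stdGaussian E] {x | ∀ l, ⟪u l, x⟫ ≤ ⟪u j, x⟫}) ∧
      ∀ i, i ∉ Set.range f → stdGaussian E (A i) = 0)
    {k : ℕ} {A : Fin k → Set E}
    (hm : ∀ i, NullMeasurableSet (A i) (stdGaussian E))
    (hd : Pairwise fun i j => AEDisjoint (stdGaussian E) (A i) (A j))
    (hcov : ∀ᵐ x ∂(stdGaussian E), x ∈ ⋃ i, A i) :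
    ∑ i, ‖∫ x in A i, x ∂(stdGaussian E)‖ ^ 2 = 9 / (8 * Real.pi) ↔
      ∃ u : Fin 3 → E, (∀ j, ‖u j‖ = 1) ∧ ∑ j, u j = 0 ∧
      ∃ f : Fin 3 → Fin k, Function.Injective f ∧
      (∀ j, A (f j) =ᵐ[stdGaussian E] {x | ∀ l, ⟪u l, x⟫ ≤ ⟪u j, x⟫}) ∧
      ∀ i, i ∉ Set.range f → stdGaussian E (A i) = 0 := by
  constructor
  · intro heq
    have hk : 0 < k := by
      rcases Nat.eq_zero_or_pos k with h | h
      · subst h
        simp only [Finset.univ_eq_empty, Finset.sum_empty] at heq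
        have : (0 : ℝ) < 9 / (8 * Real.pi) := by positivity
        linarith
      · exact h
    obtain ⟨A', hA', hae⟩ := exists_exact hk hm hd hcov
    have hmax : IsMax A' := by
      refine ⟨hA', ?_⟩
      rw [← heq]
      refine Finset.sum_congr rfl fun i _ => ?_
      have : fm (A' i) = ∫ x in A i, x ∂(stdGaussian E) := setIntegral_congr_set (hae i)
      rw [this]
    obtain ⟨u, h1, h2, f, hf, h3, h4⟩ := hM k A' hmax
    refine ⟨u, h1, h2, f, hf, fun j => (hae (f j)).symm.trans (h3 j), fun i hi => ?_⟩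
    rw [← measure_congr (hae i)]
    exact h4 i hi
  · rintro ⟨u, h1, h2, f, hf, h3, _⟩
    apply le_antisymm
    · exact sum_le_of_bdd (bdd (k + 1)) hm fun i j hij => hd hij
    · have h5 := le_of_sectors (B := fun j => A (f j)) h1 h2 (fun j => hm _)
        (fun i j hij => hd (hf.ne hij)) h3
      refine h5.trans ?_
      show ∑ j, ‖fm (A (f j))‖ ^ 2 ≤ ∑ i, ‖fm (A i)‖ ^ 2
      rw [← Finset.sum_image (s := Finset.univ) (g := f) (f := fun i => ‖fm (A i)‖ ^ 2)
        (fun a _ b _ hab => hf hab)]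
      exact Finset.sum_le_sum_of_subset_of_nonneg (Finset.subset_univ _)
        fun i _ _ => sq_nonneg _

end Vale.Agent.P226.Eqc
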