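import Vale.Agent.P226.Bdl.B1

/-!
# P226, equality case: maximisers are argmax partitions

If a partition attains `9/(8π)` then almost every point lies in a cell whose moment has the
largest inner product with it.
-/

set_option autoImplicit false

open MeasureTheory ProbabilityTheory
open scoped RealInnerProductSpace

namespace Vale.Agent.P226.Eqc

open K3

variable {E : Type*} [NormedAddCommGroup E] [InnerProductSpace ℝ E] [FiniteDimensional ℝ E]
  [MeasurableSpace E] [BorelSpace E]

/-- A partition which attains the propeller bound. -/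
def IsMax {k : ℕ} (A : Fin k → Set E) : Prop :=
  IsPart A ∧ ∑ i, ‖fm (A i)‖ ^ 2 = 9 / (8 * Real.pi)

lemma bdd (k : ℕ) : Bdd E k := bdd_of_isEmpty_bad inferInstance k

/-- The first moment of a difference. -/
lemma fm_sdiff {A N : Set E} (hN : MeasurableSet N) (h : N ⊆ A) :
    fm (A \ N) = fm A - fm N := by
  have h1 : fm ((A \ N) ∪ N) = fm (A \ N) + fm N :=
    fm_union hN Set.disjoint_sdiff_left
  rw [Set.sdiff_union_of_subset h] at h1
  rw [h1]
  abel

section move

variable {k : ℕ} {A : Fin k → Set E} {i j : Fin k} {N : Set E}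

/-- Move the set `N` from the cell `i` to the cell `j`. -/
def move (A : Fin k → Set E) (i j : Fin k) (N : Set E) : Fin k → Set E :=
  fun l => if l = i then A i \ N else if l = j then A j ∪ N else A l

omit [NormedAddCommGroup E] [InnerProductSpace ℝ E] [FiniteDimensional ℝ E] [BorelSpace E] in
lemma isPart_move (h : IsPart A) (hij : i ≠ j) (hN : MeasurableSet N) (hNi : N ⊆ A i) :
    IsPart (move A i j N) where
  meas l := by
    unfold move
    split_ifs
    · exact (h.meas i).diff hN
    · exact (h.meas j).union hN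
    · exact h.meas l
  disj l m hlm := by
    have key : ∀ l : Fin k, ∀ x, x ∈ move A i j N l ↔
        (x ∈ N ∧ l = j) ∨ (x ∉ N ∧ x ∈ A l) := by
      intro l x
      unfold move
      split_ifs with h1 h2
      · subst h1
        simp only [Set.mem_sdiff]
        constructor
        · rintro ⟨ha, hb⟩
          exact Or.inr ⟨hb, ha⟩
        · rintro (⟨_, hb⟩ | ⟨ha, hb⟩)
          · exact absurd hb hij
          · exact ⟨hb, ha⟩
      · subst h2
        simp only [Set.mem_union]
        constructor
        · rintro (ha | ha)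
          · by_cases hx : x ∈ N
            · exact Or.inl ⟨hx, by first | rfl | trivial⟩
            · exact Or.inr ⟨hx, ha⟩
          · exact Or.inl ⟨ha, by first | rfl | trivial⟩
        · rintro (⟨ha, _⟩ | ⟨_, hb⟩)
          · exact Or.inr ha
          · exact Or.inl hb
      · constructor
        · intro ha
          refine Or.inr ⟨fun hx => ?_, ha⟩
          exact Set.disjoint_left.1 (h.disj h1) ha (hNi hx)
        · rintro (⟨_, hb⟩ | ⟨_, hb⟩)
          · exact absurd hb h2
          · exact hb
    show Disjoint (move A i j N l) (move A i j N m)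
    rw [Set.disjoint_left]
    intro x hx hx'
    rw [key] at hx hx'
    rcases hx with ⟨h1, h2⟩ | ⟨h1, h2⟩
    · rcases hx' with ⟨h3, h4⟩ | ⟨h3, h4⟩
      · exact hlm (h2.trans h4.symm)
      · exact h3 h1
    · rcases hx' with ⟨h3, h4⟩ | ⟨h3, h4⟩
      · exact h1 h3
      · exact Set.disjoint_left.1 (h.disj hlm) h2 h4
  cover := by
    refine Set.eq_univ_of_forall fun x => ?_
    have hx : x ∈ ⋃ i, A i := by rw [h.cover]; trivial
    obtain ⟨l, hl⟩ := Set.mem_iUnion.1 hx
    rw [Set.mem_iUnion]
    by_cases hxN : x ∈ N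
    · refine ⟨j, ?_⟩
      unfold move
      rw [if_neg (Ne.symm hij), if_pos rfl]
      exact Or.inr hxN
    · refine ⟨l, ?_⟩
      unfold move
      split_ifs with h1 h2
      · subst h1
        exact ⟨hl, hxN⟩
      · subst h2
        exact Or.inl hl
      · exact hl

lemma sum_move (h : IsPart A) (hij : i ≠ j) (hN : MeasurableSet N) (hNi : N ⊆ A i) :
    ∑ l, ‖fm (move A i j N l)‖ ^ 2 =
      ∑ l, ‖fm (A l)‖ ^ 2 + 2 * ⟪fm (A j) - fm (A i), fm N⟫ + 2 * ‖fm N‖ ^ 2 := by
  have hj : j ∈ Finset.univ.erase i := by simp [Ne.symm hij]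
  rw [← Finset.add_sum_erase Finset.univ _ (Finset.mem_univ i),
    ← Finset.add_sum_erase Finset.univ (fun l => ‖fm (A l)‖ ^ 2) (Finset.mem_univ i),
    ← Finset.add_sum_erase _ _ hj, ← Finset.add_sum_erase _ (fun l => ‖fm (A l)‖ ^ 2) hj]
  have h1 : ∑ l ∈ (Finset.univ.erase i).erase j, ‖fm (move A i j N l)‖ ^ 2 =
      ∑ l ∈ (Finset.univ.erase i).erase j, ‖fm (A l)‖ ^ 2 := by
    refine Finset.sum_congr rfl fun l hl => ?_
    have h2 : l ≠ j := Finset.ne_of_mem_erase hl
    have h3 : l ≠ i := Finset.ne_of_mem_erase (Finset.mem_of_mem_erase hl)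
    simp only [move, if_neg h2, if_neg h3]
  have hi' : move A i j N i = A i \ N := by simp [move]
  have hj' : move A i j N j = A j ∪ N := by simp [move, Ne.symm hij]
  have hd : Disjoint (A j) N := (h.disj (Ne.symm hij)).mono_right hNi
  rw [h1, hi', hj', fm_sdiff hN hNi, fm_union hN hd, norm_sub_sq_real, norm_add_sq_real,
    inner_sub_left]
  ring

end move

/-- **(N1)** Almost every point lies in a cell whose moment maximises the inner product. -/
theorem IsMax.argmax {k : ℕ} {A : Fin k → Set E} (h : IsMax A) :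
    ∀ᵐ x ∂(stdGaussian E), ∀ i, x ∈ A i → ∀ j, ⟪fm (A j), x⟫ ≤ ⟪fm (A i), x⟫ := by
  rw [ae_all_iff]
  intro i
  have key : ∀ j, ∀ᵐ x ∂(stdGaussian E), x ∈ A i → ⟪fm (A j), x⟫ ≤ ⟪fm (A i), x⟫ := by
    intro j
    by_cases hij : i = j
    · subst hij
      exact Filter.Eventually.of_forall fun x _ => le_rfl
    set N : Set E := A i ∩ {x | ⟪fm (A i), x⟫ < ⟪fm (A j), x⟫} with hN
    have hNm : MeasurableSet N := (h.1.meas i).inter
      (measurableSet_lt (by fun_prop) (by fun_prop))
    have hNi : N ⊆ A i := Set.inter_subset_left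
    have hnull : stdGaussian E N = 0 := by
      by_contra hne
      have h1 := bdd k _ (isPart_move h.1 hij hNm hNi)
      rw [sum_move h.1 hij hNm hNi, h.2] at h1
      have h2 : 0 < ⟪fm (A j) - fm (A i), fm N⟫ := by
        rw [inner_fm]
        have hnn : 0 ≤ᵐ[(stdGaussian E).restrict N] fun x => ⟪fm (A j) - fm (A i), x⟫ := by
          refine (ae_restrict_iff' hNm).2 (Filter.Eventually.of_forall fun x hx => ?_)
          have h3 : ⟪fm (A i), x⟫ < ⟪fm (A j), x⟫ := hx.2
          show 0 ≤ ⟪fm (A j) - fm (A i), x⟫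
          rw [inner_sub_left]
          linarith
        rw [setIntegral_pos_iff_support_of_nonneg_ae hnn
          (integrable_inner_stdGaussian _).integrableOn]
        have h4 : Function.support (fun x => ⟪fm (A j) - fm (A i), x⟫) ∩ N = N := by
          refine Set.inter_eq_right.2 fun x hx => ?_
          have h3 : ⟪fm (A i), x⟫ < ⟪fm (A j), x⟫ := hx.2
          rw [Function.mem_support, inner_sub_left]
          exact (sub_pos.2 h3).ne'
        rw [h4]
        exact pos_iff_ne_zero.2 hne
      have h5 := sq_nonneg ‖fm N‖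
      linarith
    filter_upwards [measure_eq_zero_iff_ae_notMem.1 hnull] with x hx hxi
    by_contra hc
    push Not at hc
    exact hx ⟨hxi, hc⟩
  have key2 := ae_all_iff.2 key
  filter_upwards [key2] with x hx hxi j
  exact hx j hxi

end Vale.Agent.P226.Eqc
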