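import Vale.Agent.P226.H757.Max

/-!
# P226, equality case: null cells and open sets
-/

set_option autoImplicit false

open MeasureTheory ProbabilityTheory
open scoped RealInnerProductSpace

namespace Vale.Agent.P226.Eqc

open K3

variable {E : Type*} [NormedAddCommGroup E] [InnerProductSpace ℝ E] [FiniteDimensional ℝ E]
  [MeasurableSpace E] [BorelSpace E]

/-- Hyperplanes are null sets. -/
lemma null_hyperplane {u : E} (hu : u ≠ 0) : stdGaussian E {x | ⟪u, x⟫ = 0} = 0 := by
  have h1 : stdGaussian E {x | ⟪u, x⟫ = 0} = ((stdGaussian E).map (fun x => ⟪u, x⟫)) {0} := by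
    rw [Measure.map_apply (by fun_prop) (measurableSet_singleton 0)]
    rfl
  rw [h1, map_inner_stdGaussian, Measure.map_apply (by fun_prop) (measurableSet_singleton 0)]
  have h2 : (fun t => ‖u‖ * t) ⁻¹' {(0 : ℝ)} = {0} := by
    ext t
    simp [norm_ne_zero_iff.2 hu]
  rw [h2]
  have := nullSingletonClass_gaussianReal (μ := 0) (v := 1) one_ne_zero
  exact measure_singleton 0

instance isOpenPosMeasure_stdGaussian : (stdGaussian E).IsOpenPosMeasure := by
  have h1 : (gaussianReal 0 1).IsOpenPosMeasure :=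
    (gaussianReal_absolutelyContinuous' 0 one_ne_zero).isOpenPosMeasure
  let b := stdOrthonormalBasis ℝ E
  rw [stdGaussian_eq_map_pi_orthonormalBasis b]
  refine Continuous.isOpenPosMeasure_map (by fun_prop) ?_
  intro y
  exact ⟨fun i => b.repr y i, b.sum_repr y⟩

/-- An almost sure property which is violated on an open set is violated nowhere on it. -/
lemma not_mem_of_ae {U : Set E} (hU : IsOpen U) (h : ∀ᵐ x ∂(stdGaussian E), x ∉ U) (x : E) :
    x ∉ U := by
  intro hx
  have h1 : stdGaussian E U = 0 := measure_eq_zero_iff_ae_notMem.2 h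
  rw [(hU.measure_eq_zero_iff (stdGaussian E)).1 h1] at hx
  exact hx

lemma IsMax.exists_ne {k : ℕ} {A : Fin k → Set E} (h : IsMax A) : ∃ i, fm (A i) ≠ 0 := by
  by_contra hc
  push Not at hc
  have h1 := h.2
  simp only [hc, norm_zero, ne_eq, OfNat.ofNat_ne_zero, not_false_eq_true, zero_pow,
    Finset.sum_const_zero] at h1
  have h2 : (0 : ℝ) < 9 / (8 * Real.pi) := by positivity
  linarith

/-- **(N2)** A cell with vanishing moment is a null set. -/
theorem IsMax.null {k : ℕ} {A : Fin k → Set E} (h : IsMax A) {i : Fin k} (hi : fm (A i) = 0) :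
    stdGaussian E (A i) = 0 := by
  obtain ⟨j, hj⟩ := h.exists_ne
  rw [measure_eq_zero_iff_ae_notMem]
  filter_upwards [h.argmax, measure_eq_zero_iff_ae_notMem.1 (null_hyperplane hj)] with x hx hxj hxi
  have h1 := hx i hxi
  rw [hi] at h1
  simp only [inner_zero_left] at h1
  have h2 : ∑ l, ⟪fm (A l), x⟫ = 0 := by
    rw [← sum_inner, h.1.sum_fm, inner_zero_left]
  have h3 := (Finset.sum_eq_zero_iff_of_nonpos (s := Finset.univ)
    (f := fun l => ⟪fm (A l), x⟫) (fun l _ => h1 l)).1 h2 j (Finset.mem_univ j)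
  exact hxj h3

end Vale.Agent.P226.Eqc
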